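import Mathlib
import Vale.Agent.P102.Exact

/-!
# The lowest failing order of mixing never fails by an exact relation
-/

open MeasureTheory Filter
open scoped Topology

namespace Vale.Agent.Results.P102.NoExactFailure

open Vale.Agent.P102

/-- If `T` is mixing of order `m ≥ 2`, then for every nonconstant circle-valued observable `f` the
`(m + 1)`-point correlations stay uniformly away from modulus one once all gaps are large. -/
theorem result :
    ∀ (Ω : Type) [MeasurableSpace Ω] (μ : Measure Ω) [IsProbabilityMeasure μ] (T : Ω ≃ᵐ Ω),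
      MeasurePreserving T μ μ → ∀ m : ℕ, 2 ≤ m → MixingOfOrder μ T m →
      ∀ f : Ω → ℂ, Measurable f → (∀ x, ‖f x‖ = 1) → (¬ ∃ c : ℂ, ∀ᵐ x ∂μ, f x = c) →
      ∃ G : ℕ, ∃ δ : ℝ, 0 < δ ∧ ∀ t : Fin (m + 1) → ℤ, (∀ i j, i < j → t i + G ≤ t j) →
        ‖∫ x, ∏ i, f (zpowMap T (t i) x) ∂μ‖ ≤ 1 - δ := by
  intro Ω _ μ _ T hT m hm hmix f hf hf1 hne
  by_contra hcon
  push Not at hcon
  choose t ht htlarge using fun n : ℕ => hcon (n + 1) (1 / (n + 1 : ℝ)) (by positivity)
  apply hne
  let F : Ω → Circle := fun x => ⟨f x, mem_sphere_zero_iff_norm.mpr (hf1 x)⟩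
  let d : ℕ → Fin (m + 1) → ℕ := fun n i => (t n i - t n 0).toNat
  have hnn : ∀ n i, ((d n i : ℕ) : ℤ) = t n i - t n 0 := by
    intro n i
    refine Int.toNat_of_nonneg ?_
    rcases eq_or_ne i 0 with h | h
    · simp [h]
    · have := ht n 0 i (Fin.pos_of_ne_zero h)
      omega
  have hd : ∀ n, StrictMono (d n) := by
    intro n i j hij
    have := ht n i j hij
    have := hnn n i
    have := hnn n j
    omega
  have hd0 : ∀ n, d n 0 = 0 := fun n => by simp [d]
  have hgap : ∀ g : ℕ, ∀ᶠ n in atTop, ∀ i j, i < j → d n i + g ≤ d n j := fun g =>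
    eventually_atTop.mpr ⟨g, fun n hn i j hij => by
      have := ht n i j hij
      have := hnn n i
      have := hnn n j
      omega⟩
  have hF : Measurable fun x => (F x : ℂ) := hf
  have heq : ∀ n, ∫ x, ∏ i, (F ((⇑T)^[d n i] x) : ℂ) ∂μ
      = ∫ x, ∏ i, f (zpowMap T (t n i) x) ∂μ := by
    intro n
    have hmp := measurePreserving_zpowMap hT (t n 0)
    have e : ∀ x, ∏ i, f (zpowMap T (t n i) x)
        = ∏ i, (F ((⇑T)^[d n i] (zpowMap T (t n 0) x)) : ℂ) := fun x =>
      Finset.prod_congr rfl fun i _ => by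
        rw [show t n i = ((d n i : ℕ) : ℤ) + t n 0 by rw [hnn]; ring, zpowMap_add, zpowMap_natCast]
        rfl
    simp only [e]
    rw [← integral_map hmp.measurable.aemeasurable
      (f := fun x => ∏ i, (F ((⇑T)^[d n i] x) : ℂ))
      (by rw [hmp.map_eq]
          exact (Finset.measurable_prod _ fun i _ =>
            hF.comp (hT.iterate _).measurable).aestronglyMeasurable), hmp.map_eq]
  have hlim : Tendsto (fun n => ‖∫ x, ∏ i, (F ((⇑T)^[d n i] x) : ℂ) ∂μ‖) atTop (𝓝 1) := by
    refine tendsto_of_tendsto_of_tendsto_of_le_of_le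
      (g := fun n : ℕ => 1 - 1 / ((n : ℝ) + 1)) (h := fun _ => (1 : ℝ))
      (by simpa using (tendsto_one_div_add_atTop_nhds_zero_nat (𝕜 := ℝ)).const_sub 1)
      tendsto_const_nhds (fun n => ?_) (fun n => ?_)
    · simp only [heq]
      exact (htlarge n).le
    · have := norm_integral_le_of_norm_le_const (μ := μ) (C := (1:ℝ))
        (f := fun x => ∏ i, (F ((⇑T)^[d n i] x) : ℂ)) (ae_of_all _ fun x => le_of_eq (by
          rw [norm_prod]; exact Finset.prod_eq_one fun i _ => Circle.norm_coe _))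
      rwa [probReal_univ, mul_one] at this
  obtain ⟨c, hc⟩ := ae_const hT hF hmix hm d hd hd0 hgap hlim
  exact ⟨(c : ℂ), hc.mono fun x hx => congrArg Subtype.val hx⟩

end Vale.Agent.Results.P102.NoExactFailure
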